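import Mathlib

set_option autoImplicit false

/-! P181, RG [MAT]: the determinants -/

namespace Vale.Agent.P181.RG.H348

open Finset

/-- unit rows except one -/
lemma det_unit_row {m : ℕ} {A : Type*} [CommRing A] (α : Fin m) (v : Fin m → A)
    (M : Matrix (Fin m) (Fin m) A) (h1 : ∀ r s, r ≠ α → M r s = if r = s then 1 else 0)
    (h2 : ∀ s, M α s = v s) : M.det = v α := by
  have e : M = (1 : Matrix (Fin m) (Fin m) A).updateRow α v := by
    ext r s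
    by_cases hr : r = α
    · subst hr
      rw [Matrix.updateRow_self, h2]
    · rw [Matrix.updateRow_ne hr, h1 r s hr, Matrix.one_apply]
  rw [e, ← Matrix.cramer_transpose_apply, Matrix.transpose_one, Matrix.cramer_one]
  rfl

/-- rearrangement, strict -/
lemma sum_mul_lt {u : ℕ} (τ ρ : Equiv.Perm (Fin u)) (h : ρ ≠ τ) :
    ∑ i, (τ i : ℕ) * (ρ i : ℕ) + 1 ≤ ∑ i, (τ i : ℕ) * (τ i : ℕ) := by
  have h1 : ∑ i, ((τ i : ℤ) - (ρ i : ℤ)) ^ 2 =
      2 * (∑ i, (τ i : ℤ) * (τ i : ℤ) - ∑ i, (τ i : ℤ) * (ρ i : ℤ)) := by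
    have e1 : ∑ i, (ρ i : ℤ) * (ρ i : ℤ) = ∑ i : Fin u, (i : ℤ) * (i : ℤ) :=
      Equiv.sum_comp ρ (fun i : Fin u => (i : ℤ) * (i : ℤ))
    have e2 : ∑ i, (τ i : ℤ) * (τ i : ℤ) = ∑ i : Fin u, (i : ℤ) * (i : ℤ) :=
      Equiv.sum_comp τ (fun i : Fin u => (i : ℤ) * (i : ℤ))
    have e3 : ∑ i, ((τ i : ℤ) - (ρ i : ℤ)) ^ 2 = ∑ i, (τ i : ℤ) * (τ i : ℤ) +
        ∑ i, (ρ i : ℤ) * (ρ i : ℤ) - 2 * ∑ i, (τ i : ℤ) * (ρ i : ℤ) := by
      rw [mul_sum, ← sum_add_distrib, ← sum_sub_distrib]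
      exact sum_congr rfl fun i _ => by ring
    rw [e3, e1, ← e2]
    ring
  have h2 : 0 < ∑ i, ((τ i : ℤ) - (ρ i : ℤ)) ^ 2 := by
    have : ∃ i, ρ i ≠ τ i := by
      by_contra hc
      push Not at hc
      exact h (Equiv.ext hc)
    obtain ⟨i, hi⟩ := this
    refine sum_pos' (fun i _ => sq_nonneg _) ⟨i, mem_univ i, ?_⟩
    have h3 : ((τ i : ℕ) : ℤ) ≠ ((ρ i : ℕ) : ℤ) := by
      intro h4
      exact hi (Fin.ext (by exact_mod_cast h4.symm))
    have h5 : ((τ i : ℤ) - (ρ i : ℤ)) ≠ 0 := sub_ne_zero.2 h3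
    positivity
  zify
  omega

/-- the matrix `t ^ (∑ i, τ i * ρ i)` is nonsingular for `t = u!` -/
lemma det_pow_ne {u : ℕ} : (Matrix.of fun τ ρ : Equiv.Perm (Fin u) =>
    ((u.factorial : ℂ) ^ (∑ i, (τ i : ℕ) * (ρ i : ℕ)))).det ≠ 0 := by
  classical
  refine det_ne_zero_of_sum_row_lt_diag fun τ => ?_
  simp only [Matrix.of_apply, norm_pow, Complex.norm_natCast]
  set t : ℝ := (u.factorial : ℝ) with ht
  have ht1 : 1 ≤ t := by
    rw [ht]
    exact_mod_cast Nat.one_le_iff_ne_zero.2 (Nat.factorial_ne_zero u)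
  have ht0 : 0 < t := by linarith
  rcases Nat.eq_zero_or_pos (∑ i, (τ i : ℕ) * (τ i : ℕ)) with hz | hz
  · -- no other permutation
    have hall : ∀ ρ : Equiv.Perm (Fin u), ρ = τ := by
      intro ρ
      by_contra hρ
      have := sum_mul_lt τ ρ hρ
      omega
    have : (univ.erase τ : Finset (Equiv.Perm (Fin u))) = ∅ := by
      ext ρ
      simp [hall ρ]
    rw [this, sum_empty]
    positivity
  · have h1 : ∀ ρ ∈ (univ.erase τ : Finset (Equiv.Perm (Fin u))),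
        t ^ (∑ i, (τ i : ℕ) * (ρ i : ℕ)) ≤ t ^ (∑ i, (τ i : ℕ) * (τ i : ℕ) - 1) := by
      intro ρ hρ
      have := sum_mul_lt τ ρ (ne_of_mem_erase hρ)
      exact pow_le_pow_right₀ ht1 (by omega)
    have h2 := sum_le_card_nsmul _ _ _ h1
    refine lt_of_le_of_lt h2 ?_
    rw [nsmul_eq_mul, card_erase_of_mem (mem_univ τ), card_univ, Fintype.card_perm,
      Fintype.card_fin]
    have h3 : t ^ (∑ i, (τ i : ℕ) * (τ i : ℕ)) = t * t ^ (∑ i, (τ i : ℕ) * (τ i : ℕ) - 1) := by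
      rw [← pow_succ']
      congr 1
      omega
    rw [h3]
    have h4 : ((u.factorial - 1 : ℕ) : ℝ) < t := by
      rw [ht]
      exact_mod_cast Nat.sub_lt (Nat.factorial_pos u) one_pos
    exact mul_lt_mul_of_pos_right h4 (by positivity)

end Vale.Agent.P181.RG.H348
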