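import Vale.Agent.P181.RG.Defs
import Vale.Agent.P181.RG.H348.Lin

set_option autoImplicit false

/-! P181, RG [MAT]: the values of the columns at the marking points -/

namespace Vale.Agent.P181.RG.H348

open Finset
open Vale.Agent.P181 Vale.Agent.P181.H188W Vale.Agent.P181.T4 Vale.Agent.P181.H463

/-- the marking point -/
noncomputable def zz {u m : ℕ} {f : Fin m → ℕ} {n : ℕ} (hmn : m ≤ n) (y : Fin u → Fin n → ℂ) :
    Lt u m f → Fin n → ℂ
  | Sum.inl i => y i
  | Sum.inr x => Pi.single (Fin.castLE hmn x.1) 1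

/-- class preserving permutations -/
def Pres {u m : ℕ} {f : Fin m → ℕ} (σ : Equiv.Perm (Lt u m f)) : Prop :=
  ∀ x : Σ r : Fin m, Fin (f r), Own x.1 (σ (Sum.inr x))

lemma pres_inl {u m : ℕ} {f : Fin m → ℕ} {σ : Equiv.Perm (Lt u m f)} (h : Pres σ) (i : Fin u) :
    ∃ j, σ (Sum.inl i) = Sum.inl j := by
  classical
  -- the map on class letters is injective, hence surjective
  let g : (Σ r : Fin m, Fin (f r)) → (Σ r : Fin m, Fin (f r)) := fun x => ⟨x.1, (h x).choose⟩
  have hg : ∀ x, σ (Sum.inr x) = Sum.inr (g x) := fun x => (h x).choose_spec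
  have hinj : Function.Injective g := by
    intro x x' hxx
    have h1 := hg x
    rw [hxx, ← hg x'] at h1
    exact Sum.inr_injective (σ.injective h1)
  have hsurj := Finite.injective_iff_surjective.1 hinj
  rcases hσ : σ (Sum.inl i) with j | x
  · exact ⟨j, rfl⟩
  · exfalso
    obtain ⟨x', hx'⟩ := hsurj x
    have h1 := hg x'
    rw [hx', ← hσ] at h1
    exact Sum.inr_ne_inl (σ.injective h1)

/-- the permutation of the free letters -/
noncomputable def toPerm {u m : ℕ} {f : Fin m → ℕ} (σ : Equiv.Perm (Lt u m f)) (h : Pres σ) :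
    Equiv.Perm (Fin u) :=
  Equiv.ofBijective (fun i => (pres_inl h i).choose) (by
    rw [Fintype.bijective_iff_injective_and_card]
    refine ⟨fun i j hij => ?_, rfl⟩
    have h1 := (pres_inl h i).choose_spec
    have h2 := (pres_inl h j).choose_spec
    simp only at hij
    rw [hij, ← h2] at h1
    exact Sum.inl_injective (σ.injective h1))

lemma toPerm_spec {u m : ℕ} {f : Fin m → ℕ} (σ : Equiv.Perm (Lt u m f)) (h : Pres σ) (i : Fin u) :
    σ (Sum.inl i) = Sum.inl (toPerm σ h i) := (pres_inl h i).choose_spec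

/-- the matrix of a column with the free letters `g` -/
noncomputable def mrow {u m n : ℕ} {A : Type*} [CommRing A] (hmn : m ≤ n)
    (g : Fin m → Option (Fin u)) (y : Fin u → Fin n → A) : Matrix (Fin m) (Fin m) A :=
  Matrix.of fun r s => match g r with
    | some i => y i (Fin.castLE hmn s)
    | none => if r = s then 1 else 0

/-- same class: minor zero -/
lemma det_same {u m n : ℕ} {f : Fin m → ℕ} (hmn : m ≤ n) (y : Fin u → Fin n → ℂ)
    (L : Fin m → Lt u m f) {r r' : Fin m} (hr : r ≠ r') (h : Same (L r) (L r')) :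
    (Matrix.of fun r s : Fin m => zz hmn y (L r) (Fin.castLE hmn s)).det = 0 := by
  obtain ⟨κ, ⟨i, hi⟩, ⟨j, hj⟩⟩ := h
  refine Matrix.det_zero_of_row_eq hr ?_
  funext s
  rw [Matrix.of_apply, Matrix.of_apply, hi, hj]
  rfl

lemma single_cast {m n : ℕ} (hmn : m ≤ n) (r s : Fin m) :
    (Pi.single (Fin.castLE hmn r) (1 : ℂ) : Fin n → ℂ) (Fin.castLE hmn s) =
      if r = s then 1 else 0 := by
  by_cases h : r = s
  · subst h
    rw [if_pos rfl, Pi.single_eq_same]
  · rw [if_neg h, Pi.single_eq_of_ne]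
    intro h'
    exact h (Fin.castLE_injective hmn h').symm

/-- a column with own letters and the free letters `g`, after a class preserving permutation -/
lemma mat_eq {u m n : ℕ} {f : Fin m → ℕ} (hmn : m ≤ n) (y : Fin u → Fin n → ℂ)
    (L : Fin m → Lt u m f) (g : Fin m → Option (Fin u))
    (hg : ∀ r, (∀ i, g r = some i → L r = Sum.inl i) ∧ (g r = none → Own r (L r)))
    (σ : Equiv.Perm (Lt u m f)) (h : Pres σ) :
    (Matrix.of fun r s : Fin m => zz hmn y (σ (L r)) (Fin.castLE hmn s)) =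
      mrow hmn g (fun i => y (toPerm σ h i)) := by
  ext r s
  rw [Matrix.of_apply, mrow, Matrix.of_apply]
  rcases hgr : g r with _ | i
  · obtain ⟨i, hi⟩ := (hg r).2 hgr
    obtain ⟨j, hj⟩ := h ⟨r, i⟩
    rw [hi, hj]
    simp only [zz]
    exact single_cast hmn r s
  · rw [(hg r).1 i hgr, toPerm_spec σ h i]
    rfl

/-- nonsingularity of thin columns at the special point -/
lemma thin_ne {u m n : ℕ} (hm : 3 ≤ m) (hmn : m ≤ n) {g : Fin m → Option (Fin u)} (hg : Thin g)
    (y : Fin u → Fin n → ℂ) (h0 : ∀ i j, y i j ≠ 0)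
    (h1 : ∀ i, y i ⟨0, by omega⟩ = 1)
    (h2 : ∀ i j, i ≠ j → y i ⟨1, by omega⟩ ≠ y j ⟨1, by omega⟩) :
    (mrow hmn g y).det ≠ 0 := by
  classical
  intro hdet
  obtain ⟨v, hv0, hv⟩ := Matrix.exists_mulVec_eq_zero_iff.2 hdet
  apply hv0
  have hnone : ∀ r, g r = none → v r = 0 := by
    intro r hr
    have h3 := congrFun hv r
    rw [Matrix.mulVec, dotProduct] at h3
    simp only [mrow, Matrix.of_apply, hr, ite_mul, one_mul, zero_mul, Pi.zero_apply] at h3
    rw [Finset.sum_ite_eq, if_pos (mem_univ r)] at h3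
    exact h3
  rcases hg with hg | ⟨i, j, hij, hg⟩
  · funext r
    rcases hgr : g r with _ | i
    · exact hnone r hgr
    · have h3 := congrFun hv r
      rw [Matrix.mulVec, dotProduct] at h3
      simp only [mrow, Matrix.of_apply, hgr, Pi.zero_apply] at h3
      rw [Finset.sum_eq_single r] at h3
      · exact (mul_eq_zero.1 h3).resolve_left (h0 _ _)
      · intro s _ hs
        have : g s = none := by
          by_contra hc
          exact hs (hg s r hc (by rw [hgr]; exact Option.some_ne_none i))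
        rw [hnone s this, mul_zero]
      · intro hc
        exact absurd (mem_univ r) hc
  · have r0 : g ⟨0, by omega⟩ = some i := by rw [hg]; simp
    have r1 : g ⟨1, by omega⟩ = some j := by rw [hg]; simp
    have hrest : ∀ r : Fin m, (r : ℕ) ≠ 0 → (r : ℕ) ≠ 1 → v r = 0 := by
      intro r hr0 hr1
      exact hnone r (by rw [hg, if_neg hr0, if_neg hr1])
    have hrow : ∀ (r : Fin m) (l : Fin u), g r = some l →
        y l (Fin.castLE hmn ⟨0, by omega⟩) * v ⟨0, by omega⟩ +
          y l (Fin.castLE hmn ⟨1, by omega⟩) * v ⟨1, by omega⟩ = 0 := by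
      intro r l hl
      have h3 := congrFun hv r
      rw [Matrix.mulVec, dotProduct] at h3
      simp only [mrow, Matrix.of_apply, hl, Pi.zero_apply] at h3
      rw [← h3]
      symm
      rw [Finset.sum_eq_add_of_mem ⟨0, by omega⟩ ⟨1, by omega⟩ (mem_univ _) (mem_univ _)
        (by intro h; have := congrArg Fin.val h; simp at this)]
      intro s _ hs
      rw [hrest s (fun h => hs.1 (Fin.ext h)) (fun h => hs.2 (Fin.ext h)), mul_zero]
    have e0 := hrow _ _ r0
    have e1 := hrow _ _ r1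
    have c0 : ∀ l, y l (Fin.castLE hmn ⟨0, by omega⟩) = 1 := h1
    have c1 : y i (Fin.castLE hmn ⟨1, by omega⟩) ≠ y j (Fin.castLE hmn ⟨1, by omega⟩) :=
      h2 i j hij
    rw [c0] at e0 e1
    have h4 : (y i (Fin.castLE hmn ⟨1, by omega⟩) - y j (Fin.castLE hmn ⟨1, by omega⟩)) *
        v ⟨1, by omega⟩ = 0 := by linear_combination e0 - e1
    have h5 : v ⟨1, by omega⟩ = 0 := (mul_eq_zero.1 h4).resolve_left (sub_ne_zero.2 c1)
    rw [h5] at e0
    have h6 : v ⟨0, by omega⟩ = 0 := by linear_combination e0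
    funext r
    by_cases hr0 : (r : ℕ) = 0
    · have : r = ⟨0, by omega⟩ := Fin.ext hr0
      rw [this, h6]
      rfl
    · by_cases hr1 : (r : ℕ) = 1
      · have : r = ⟨1, by omega⟩ := Fin.ext hr1
        rw [this, h5]
        rfl
      · exact hrest r hr0 hr1

lemma al_lt (D l s : ℕ) : al D l s < 3 := by
  unfold al
  split_ifs <;> omega

/-- the form of the letter `i` -/
lemma prod_al {A : Type*} [CommRing A] {D l : ℕ} (hl : l < (D + 1) ^ 2) (x0 x1 x2 : A)
    (w : ℕ → A) (h0 : w 0 = x0) (h1 : w 1 = x1) (h2 : w 2 = x2) :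
    ∏ s : Fin (2 * D), w (al D l s) =
      x1 ^ (l % (D + 1)) * x2 ^ (l / (D + 1)) * x0 ^ (2 * D - l % (D + 1) - l / (D + 1)) := by
  have hp : l % (D + 1) ≤ D := Nat.lt_succ_iff.1 (Nat.mod_lt _ (by omega))
  have hq : l / (D + 1) ≤ D := by
    have : l / (D + 1) < D + 1 := by
      rw [Nat.div_lt_iff_lt_mul (by omega)]
      rw [pow_two] at hl
      exact hl
    omega
  obtain ⟨p, hpd⟩ : ∃ p, p = l % (D + 1) := ⟨_, rfl⟩
  obtain ⟨q, hqd⟩ : ∃ q, q = l / (D + 1) := ⟨_, rfl⟩
  rw [← hpd, ← hqd]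
  rw [← hpd] at hp
  rw [← hqd] at hq
  rw [Fin.prod_univ_eq_prod_range (fun s => w (al D l s)) (2 * D)]
  have e : 2 * D = p + (q + (2 * D - p - q)) := by omega
  rw [show Finset.range (2 * D) = Finset.range (p + (q + (2 * D - p - q))) by rw [← e],
    Finset.prod_range_add, Finset.prod_range_add]
  have a1 : ∏ x ∈ range p, w (al D l x) = x1 ^ p := by
    rw [prod_congr rfl (g := fun _ => x1), prod_const, card_range]
    intro x hx
    rw [mem_range] at hx
    rw [al, ← hpd, if_pos hx, h1]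
  have a2 : ∏ x ∈ range q, w (al D l (p + x)) = x2 ^ q := by
    rw [prod_congr rfl (g := fun _ => x2), prod_const, card_range]
    intro x hx
    rw [mem_range] at hx
    rw [al, ← hpd, ← hqd, if_neg (by omega), if_pos (by omega), h2]
  have a3 : ∏ x ∈ range (2 * D - p - q), w (al D l (p + (q + x))) = x0 ^ (2 * D - p - q) := by
    rw [prod_congr rfl (g := fun _ => x0), prod_const, card_range]
    intro x hx
    rw [al, ← hpd, ← hqd, if_neg (by omega), if_neg (by omega), h0]
  rw [a1, a2, a3]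
  ring

end Vale.Agent.P181.RG.H348
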