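import Vale.Agent.P181.RG.H348.Mat1

set_option autoImplicit false

/-! P181, RG [MAT]: separation -/

namespace Vale.Agent.P181.RG.H348

open Finset MvPolynomial
open Vale.Agent.P181 Vale.Agent.P181.H280 Vale.Agent.P181.FR Vale.Agent.P181.H188W
open Vale.Agent.P181.T4 Vale.Agent.P181.H463 Vale.Agent.P181.H261

variable {u m D R n : ℕ} {f : Fin m → ℕ}

/-- The column index. -/
abbrev CN (u D R : ℕ) : Type := (Fin u × Fin (2 * D)) ⊕ Fin R

/-- product of the minors of the columns `L` at the point `z` -/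
noncomputable def cp (hmn : m ≤ n) (L : CN u D R → Fin m → Lt u m f)
    (z : Lt u m f → Fin n → ℂ) : ℂ :=
  ∏ c, (Matrix.of fun r s : Fin m => z (L c r) (Fin.castLE hmn s)).det

/-- the row of the form column -/
def al3 (hn : 3 ≤ n) (D l s : ℕ) : Fin n := ⟨al D l s, lt_of_lt_of_le (al_lt D l s) hn⟩

lemma cp_pres (hm : 3 ≤ m) (hmn : m ≤ n) (τ : Equiv.Perm (Fin u))
    (L : CN u D R → Fin m → Lt u m f) (fr : Fin R → Fin m → Option (Fin u))
    (h1 : ∀ i (s : Fin (2 * D)) (r : Fin m), if (r : ℕ) = al D (τ i) s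
      then L (Sum.inl (i, s)) r = Sum.inl i else Own r (L (Sum.inl (i, s)) r))
    (h2 : ∀ c r, (∀ i, fr c r = some i → L (Sum.inr c) r = Sum.inl i) ∧
      (fr c r = none → Own r (L (Sum.inr c) r)))
    (y : Fin u → Fin n → ℂ) (σ : Equiv.Perm (Lt u m f)) (hσ : Pres σ) :
    cp hmn L (fun x => zz hmn y (σ x)) =
      (∏ i, ∏ s : Fin (2 * D), y (toPerm σ hσ i) (al3 (hm.trans hmn) D (τ i) s)) *
        ∏ c, (mrow hmn (fr c) (fun i => y (toPerm σ hσ i))).det := by
  classical
  rw [cp, Fintype.prod_sum_type, Fintype.prod_prod_type]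
  congr 1
  · refine Finset.prod_congr rfl fun i _ => Finset.prod_congr rfl fun s _ => ?_
    have hα : al D (τ i) s < m := lt_of_lt_of_le (al_lt _ _ _) hm
    rw [mat_eq hmn y (L (Sum.inl (i, s)))
      (fun r => if (r : ℕ) = al D (τ i) s then some i else none) ?_ σ hσ]
    · refine (det_unit_row (⟨al D (τ i) s, hα⟩ : Fin m)
        (fun s' => y (toPerm σ hσ i) (Fin.castLE hmn s')) _ ?_ ?_).trans rfl
      · intro r s' hr
        have : (r : ℕ) ≠ al D (τ i) s := fun h => hr (Fin.ext h)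
        simp only [mrow, Matrix.of_apply, if_neg this]
      · intro s'
        simp only [mrow, Matrix.of_apply, if_true]
    · intro r
      have h3 := h1 i s r
      by_cases hr : (r : ℕ) = al D (τ i) s
      · rw [if_pos hr] at h3
        simp only [if_pos hr]
        exact ⟨fun j hj => by rw [h3, Option.some_injective _ hj], fun hj => by simp at hj⟩
      · rw [if_neg hr] at h3
        simp only [if_neg hr]
        exact ⟨fun j hj => by simp at hj, fun _ => h3⟩
  · refine Finset.prod_congr rfl fun c _ => ?_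
    rw [mat_eq hmn y (L (Sum.inr c)) (fr c) (h2 c) σ hσ]

/-- the polynomial of the rest columns -/
noncomputable def WP (hmn : m ≤ n) (fr : Fin R → Fin m → Option (Fin u)) :
    MvPolynomial (Fin n × Fin u) ℂ :=
  ∏ c, (mrow hmn (fr c) (fun i j => (X (j, i) : MvPolynomial (Fin n × Fin u) ℂ))).det

lemma eval_WP (hmn : m ≤ n) (fr : Fin R → Fin m → Option (Fin u)) (x : Fin n × Fin u → ℂ) :
    eval x (WP hmn fr) = ∏ c, (mrow hmn (fr c) (fun i j => x (j, i))).det := by
  rw [WP, map_prod]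
  refine Finset.prod_congr rfl fun c _ => ?_
  rw [RingHom.map_det]
  congr 1
  ext r s
  rw [RingHom.mapMatrix_apply, Matrix.map_apply, mrow, mrow, Matrix.of_apply, Matrix.of_apply]
  rcases fr c r with _ | i
  · simp only
    split_ifs
    · rw [map_one]
    · rw [map_zero]
  · simp only [eval_X]

/-- the polynomial of the form matrix -/
noncomputable def DA (hn : 3 ≤ n) (u D : ℕ) : MvPolynomial (Fin n × Fin u) ℂ :=
  (Matrix.of fun τ ρ : Equiv.Perm (Fin u) => ∏ i, ∏ s : Fin (2 * D),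
    (X (al3 hn D (τ i) s, ρ i) : MvPolynomial (Fin n × Fin u) ℂ)).det

lemma eval_DA (hn : 3 ≤ n) (x : Fin n × Fin u → ℂ) :
    eval x (DA hn u D) = (Matrix.of fun τ ρ : Equiv.Perm (Fin u) => ∏ i, ∏ s : Fin (2 * D),
      x (al3 hn D (τ i) s, ρ i)).det := by
  rw [DA, RingHom.map_det]
  congr 1
  ext τ ρ
  rw [RingHom.mapMatrix_apply, Matrix.map_apply, Matrix.of_apply, Matrix.of_apply, map_prod]
  refine Finset.prod_congr rfl fun i _ => ?_
  rw [map_prod]
  exact Finset.prod_congr rfl fun s _ => eval_X _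

/-- the special point -/
noncomputable def y0 (n u D : ℕ) (i : Fin u) (j : Fin n) : ℂ :=
  if (j : ℕ) = 1 then (u.factorial : ℂ) ^ (i : ℕ) else
    if (j : ℕ) = 2 then (u.factorial : ℂ) ^ ((D + 1) * (i : ℕ)) else 1

lemma y0_ne (n u D : ℕ) (i : Fin u) (j : Fin n) : y0 n u D i j ≠ 0 := by
  have h : (u.factorial : ℂ) ≠ 0 := by exact_mod_cast Nat.factorial_ne_zero u
  unfold y0
  split_ifs
  · exact pow_ne_zero _ h
  · exact pow_ne_zero _ h
  · exact one_ne_zero

lemma WP_ne (hm : 3 ≤ m) (hmn : m ≤ n) (fr : Fin R → Fin m → Option (Fin u))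
    (hfr : ∀ c, Thin (fr c)) : WP hmn fr ≠ 0 := by
  intro h
  have h1 := eval_WP hmn fr (fun ji => y0 n u 0 ji.2 ji.1)
  rw [h, map_zero] at h1
  revert h1
  refine (Finset.prod_ne_zero_iff.2 fun c _ => ?_).symm
  refine thin_ne hm hmn (hfr c) _ (fun i j => y0_ne n u 0 i j) (fun i => ?_) (fun i j hij => ?_)
  · simp [y0]
  · simp only [y0, if_true]
    intro h2
    have hu : 2 ≤ u := by
      have hi := i.2
      have hj := j.2
      by_contra hc
      apply hij
      apply Fin.ext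
      omega
    have h3 : (u.factorial : ℕ) ^ (i : ℕ) = u.factorial ^ (j : ℕ) := by exact_mod_cast h2
    have h4 : 2 ≤ u.factorial := hu.trans (Nat.self_le_factorial u)
    exact hij (Fin.ext (Nat.pow_right_injective h4 h3))

lemma DA_ne (hn : 3 ≤ n) (hu : u ≤ (D + 1) ^ 2) : DA hn u D ≠ 0 := by
  intro h
  have h1 := eval_DA (D := D) hn (fun ji : Fin n × Fin u => y0 n u D ji.2 ji.1)
  rw [h, map_zero] at h1
  apply det_pow_ne (u := u)
  rw [h1]
  congr 1
  ext τ ρ
  rw [Matrix.of_apply, Matrix.of_apply, ← Finset.prod_pow_eq_pow_sum]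
  refine Finset.prod_congr rfl fun i _ => ?_
  have hl : ((τ i : Fin u) : ℕ) < (D + 1) ^ 2 := lt_of_lt_of_le (τ i).2 hu
  have h2 := prod_al (A := ℂ) hl 1 ((u.factorial : ℂ) ^ ((ρ i : Fin u) : ℕ))
    ((u.factorial : ℂ) ^ ((D + 1) * ((ρ i : Fin u) : ℕ)))
    (fun j => if j = 1 then (u.factorial : ℂ) ^ ((ρ i : Fin u) : ℕ) else
      if j = 2 then (u.factorial : ℂ) ^ ((D + 1) * ((ρ i : Fin u) : ℕ)) else 1)
    (by simp) (by simp) (by simp)
  have h3 : ∏ s : Fin (2 * D), y0 n u D (ρ i) (al3 hn D (τ i) s) =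
      ∏ s : Fin (2 * D), (fun j => if j = 1 then (u.factorial : ℂ) ^ ((ρ i : Fin u) : ℕ) else
      if j = 2 then (u.factorial : ℂ) ^ ((D + 1) * ((ρ i : Fin u) : ℕ)) else 1)
        (al D (τ i) s) := rfl
  rw [h3, h2, one_pow, mul_one, ← pow_mul, ← pow_mul, ← pow_add]
  congr 1
  have h4 := Nat.mod_add_div ((τ i : Fin u) : ℕ) (D + 1)
  calc ((τ i : Fin u) : ℕ) * ((ρ i : Fin u) : ℕ)
      = (((τ i : Fin u) : ℕ) % (D + 1) + (D + 1) * (((τ i : Fin u) : ℕ) / (D + 1))) *
        ((ρ i : Fin u) : ℕ) := by rw [h4]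
    _ = _ := by ring

/-- **Separation.** -/
theorem sep (hm : 3 ≤ m) (hmn : m ≤ n) (hu : u ≤ (D + 1) ^ 2)
    (fr : Fin R → Fin m → Option (Fin u))
    (K : Equiv.Perm (Fin u) → CN u D R → Fin m → Lt u m f)
    (hfr : ∀ c, Thin (fr c))
    (h1 : ∀ τ i (s : Fin (2 * D)) (r : Fin m), if (r : ℕ) = al D (τ i) s
      then K τ (Sum.inl (i, s)) r = Sum.inl i else Own r (K τ (Sum.inl (i, s)) r))
    (h2 : ∀ τ c r, (∀ i, fr c r = some i → K τ (Sum.inr c) r = Sum.inl i) ∧
      (fr c r = none → Own r (K τ (Sum.inr c) r)))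
    (h3 : ∀ τ (σ : Equiv.Perm (Lt u m f)),
      (∀ c r r', r ≠ r' → ¬ Same (σ (K τ c r)) (σ (K τ c r'))) → Pres σ)
    (F : Fn u n) (hF : ∃ P, evalP u n P = F)
    (h0 : ∀ τ (y : Fin u → Fin n → ℂ), ∑ σ : Equiv.Perm (Lt u m f),
      cp hmn (K τ) (fun x => zz hmn y (σ x)) * F (fun i => zz hmn y (σ (Sum.inl i))) = 0) :
    F = 0 := by
  classical
  have hn : 3 ≤ n := hm.trans hmn
  obtain ⟨P, hP⟩ := hF
  let T : Equiv.Perm (Lt u m f) → Equiv.Perm (Fin u) := fun σ =>
    if h : Pres σ then toPerm σ h else 1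
  let nn : Equiv.Perm (Fin u) → ℕ := fun ρ =>
    ((univ.filter fun σ : Equiv.Perm (Lt u m f) => Pres σ).filter fun σ => T σ = ρ).card
  have hid : Pres (1 : Equiv.Perm (Lt u m f)) := fun x => ⟨x.2, rfl⟩
  have hT1 : T 1 = 1 := by
    simp only [T]
    rw [dif_pos hid]
    apply Equiv.ext
    intro i
    have := toPerm_spec (1 : Equiv.Perm (Lt u m f)) hid i
    exact (Sum.inl_injective this).symm
  have hn1 : (nn 1 : ℂ) ≠ 0 := by
    have : nn 1 ≠ 0 := by
      simp only [nn]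
      rw [Finset.card_ne_zero]
      exact ⟨1, by simp [hid, hT1]⟩
    exact_mod_cast this
  -- the linear system
  have hsys : ∀ (τ : Equiv.Perm (Fin u)) (y : Fin u → Fin n → ℂ), ∑ ρ : Equiv.Perm (Fin u),
      (∏ i, ∏ s : Fin (2 * D), y (ρ i) (al3 hn D (τ i) s)) *
        ((nn ρ : ℂ) * ((∏ c, (mrow hmn (fr c) (fun i => y (ρ i))).det) *
          F (fun i => y (ρ i)))) = 0 := by
    intro τ y
    rw [← h0 τ y]
    have e1 : ∑ σ : Equiv.Perm (Lt u m f), cp hmn (K τ) (fun x => zz hmn y (σ x)) *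
        F (fun i => zz hmn y (σ (Sum.inl i))) =
        ∑ σ ∈ univ.filter fun σ : Equiv.Perm (Lt u m f) => Pres σ,
          cp hmn (K τ) (fun x => zz hmn y (σ x)) * F (fun i => zz hmn y (σ (Sum.inl i))) := by
      symm
      refine Finset.sum_subset (Finset.filter_subset _ _) fun σ _ hσ => ?_
      rw [Finset.mem_filter, not_and] at hσ
      have hσ' := hσ (mem_univ σ)
      have : ∃ c r r', r ≠ r' ∧ Same (σ (K τ c r)) (σ (K τ c r')) := by
        by_contra hc
        push Not at hc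
        exact hσ' (h3 τ σ hc)
      obtain ⟨c, r, r', hr, hs⟩ := this
      have hz : cp hmn (K τ) (fun x => zz hmn y (σ x)) = 0 := by
        rw [cp]
        exact Finset.prod_eq_zero (mem_univ c) (det_same hmn y (fun r => σ (K τ c r)) hr hs)
      rw [hz, zero_mul]
    have e2 : ∀ σ ∈ univ.filter fun σ : Equiv.Perm (Lt u m f) => Pres σ,
        cp hmn (K τ) (fun x => zz hmn y (σ x)) * F (fun i => zz hmn y (σ (Sum.inl i))) =
        (fun ρ : Equiv.Perm (Fin u) => (∏ i, ∏ s : Fin (2 * D), y (ρ i) (al3 hn D (τ i) s)) *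
          ((∏ c, (mrow hmn (fr c) (fun i => y (ρ i))).det) * F (fun i => y (ρ i)))) (T σ) := by
      intro σ hσ
      have hσ' : Pres σ := (Finset.mem_filter.1 hσ).2
      have hTσ : T σ = toPerm σ hσ' := dif_pos hσ'
      rw [cp_pres hm hmn τ (K τ) fr (h1 τ) (h2 τ) y σ hσ', hTσ]
      have e3 : (fun i => zz hmn y (σ (Sum.inl i))) = fun i => y (toPerm σ hσ' i) := by
        funext i
        rw [toPerm_spec σ hσ' i]
        rfl
      rw [e3]
      ring
    rw [e1, Finset.sum_congr rfl e2, ← Finset.sum_fiberwise _ T]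
    refine Finset.sum_congr rfl fun ρ _ => ?_
    rw [Finset.sum_congr rfl (g := fun _ =>
      (∏ i, ∏ s : Fin (2 * D), y (ρ i) (al3 hn D (τ i) s)) *
        ((∏ c, (mrow hmn (fr c) (fun i => y (ρ i))).det) * F (fun i => y (ρ i))))]
    · rw [Finset.sum_const, nsmul_eq_mul]
      ring
    · intro σ hσ
      rw [(Finset.mem_filter.1 hσ).2]
  have hPz : DA hn u D * (WP hmn fr * P) = 0 := by
    apply MvPolynomial.funext
    intro x
    have hy := fun τ => hsys τ (fun i j => x (j, i))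
    have hmul : (Matrix.of fun τ ρ : Equiv.Perm (Fin u) => ∏ i, ∏ s : Fin (2 * D),
        x (al3 hn D (τ i) s, ρ i)).mulVec (fun ρ : Equiv.Perm (Fin u) =>
          (nn ρ : ℂ) * ((∏ c, (mrow hmn (fr c) (fun i j => x (j, ρ i))).det) *
            F (fun i j => x (j, ρ i)))) = 0 := by
      funext τ
      exact hy τ
    have h5 := congrArg (fun v => Matrix.mulVec
      (Matrix.of fun τ ρ : Equiv.Perm (Fin u) => ∏ i, ∏ s : Fin (2 * D),
        x (al3 hn D (τ i) s, ρ i)).adjugate v) hmul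
    simp only [Matrix.mulVec_mulVec, Matrix.adjugate_mul, Matrix.mulVec_zero,
      Matrix.smul_mulVec, Matrix.one_mulVec] at h5
    have h6 := congrFun h5 1
    rw [Pi.smul_apply, smul_eq_mul, Pi.zero_apply] at h6
    simp only [Equiv.Perm.coe_one, id_eq] at h6
    rw [map_mul, map_mul, map_zero, eval_DA, eval_WP]
    have h7 : eval x P = F (fun i j => x (j, i)) := by
      rw [← hP, evalP_apply]
    rw [h7]
    have h8 := (mul_eq_zero.1 h6)
    rcases h8 with h8 | h8
    · rw [h8, zero_mul]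
    · rcases mul_eq_zero.1 h8 with h9 | h9
      · exact absurd h9 hn1
      · rw [h9, mul_zero]
  rcases mul_eq_zero.1 hPz with h | h
  · exact absurd h (DA_ne hn hu)
  · rcases mul_eq_zero.1 h with h | h
    · exact absurd h (WP_ne hm hmn fr hfr)
    · rw [← hP, h]
      exact map_zero (evalP u n)

end Vale.Agent.P181.RG.H348
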